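import Crest.Agent.X262.Pg58.Om
import Crest.Agent.X262.Kah.BunB
import Crest.Agent.R275.FmCalc_96

/-!
# X262 / H31 (helper60), file Calc: flat calculus

* `D f w` : the differential of a function as a form; `pd a f w` : its coefficients;
* `tht f g = f dg - g df`;
* `eq_zero_of_dz` : a form of type `(p, q)`, `p < n`, killed by all `dz a` is zero;
* `holo_of_dbC` : `∂̄ (f Om) = 0` gives `f` holomorphic.
-/

set_option autoImplicit false
set_option linter.unusedSectionVars false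

open Complex Filter Topology
open scoped ContDiff

noncomputable section

namespace Crest.Agent.X262.H31

open Crest.Agent.R208.F Crest.Agent.R208.CW Crest.Agent.X262.Kah Crest.Agent.X262.Kah.Fib
open Crest.Agent.R275.Geo (Cn dbj)
open Crest.Agent.R275.Fm96 (dbj_hol differentiableAt_of_dbj)
open Crest.Agent.X262.Pg58 (Om co Om_mem Om_ne)

variable {n m : ℕ} {f g : Cn n → ℂ} {w : Cn n} {x : V n} {p q : ℕ}

/-- the differential -/
def D (f : Cn n → ℂ) (w : Cn n) : V n := cv ((fderiv ℝ f w : Cn n →L[ℝ] ℂ) : Cn n →ₗ[ℝ] ℂ)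

/-- the partial derivative -/
def pd (a : Fin n) (f : Cn n → ℂ) (w : Cn n) : ℂ := fderiv ℂ f w (ep a)

/-- `f dg - g df` -/
def tht (f g : Cn n → ℂ) (w : Cn n) : V n := f w • D g w - g w • D f w

theorem sm_of_an (h : AnalyticAt ℂ f w) : ContDiffAt ℝ ∞ f w :=
  (h.contDiffAt (n := ∞)).restrict_scalars ℝ

theorem sm1_of_an (h : AnalyticAt ℂ f w) : ContDiffAt ℝ 1 f w := (sm_of_an h).of_le Kah.one_le_inf

theorem dif_of_an (h : AnalyticAt ℂ f w) : DifferentiableAt ℝ f w :=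
  h.differentiableAt.restrictScalars ℝ

theorem an_pd (a : Fin n) (h : AnalyticAt ℂ f w) : AnalyticAt ℂ (pd a f) w :=
  ((ContinuousLinearMap.apply ℂ ℂ (ep a)).analyticAt _).comp h.fderiv

theorem D_congr (h : f =ᶠ[𝓝 w] g) : D f w = D g w := by rw [D, D, h.fderiv_eq]

theorem D_eq (h : DifferentiableAt ℂ f w) : D f w = ∑ a, pd a f w • dz a := by
  rw [D, cv_eq_sum]
  refine Finset.sum_congr rfl fun a _ => ?_
  rw [(Pg58.holo_iff (h.restrictScalars ℝ)).1 h a, zero_smul, add_zero,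
    h.fderiv_restrictScalars ℝ, pz, pd]
  simp only [ContinuousLinearMap.coe_coe, ContinuousLinearMap.coe_restrictScalars', map_smul,
    smul_eq_mul]
  congr 1
  linear_combination (-(1 / 2) * fderiv ℂ f w (ep a)) * I_mul_I

theorem D_mul (hf : DifferentiableAt ℝ f w) (hg : DifferentiableAt ℝ g w) :
    D (fun y => f y * g y) w = f w • D g w + g w • D f w := by
  rw [D, D, D, ← cv_smul, ← cv_smul, ← cv_add, fderiv_fun_mul hf hg]
  rfl

theorem D_comp {φ : Cn m → Cn n} {y : Cn m} (hf : DifferentiableAt ℝ f (φ y))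
    (hφ : DifferentiableAt ℝ φ y) : D (fun v => f (φ v)) y = pbC (Dr φ y) (D f (φ y)) := by
  rw [D, D, pbC_cv, show fderiv ℝ (fun v => f (φ v)) y = _ from fderiv_comp y hf hφ]
  rfl

theorem D_mem (h : DifferentiableAt ℂ f w) : D f w ∈ Ty 1 0 :=
  D_eq h ▸ Submodule.sum_mem _ fun a _ => Submodule.smul_mem _ _ (dz_mem a)

theorem D_ev (h : AnalyticAt ℂ f w) : D f =ᶠ[𝓝 w] fun y => ∑ a, pd a f y • dz a :=
  h.eventually_analyticAt.mono fun _ hy => D_eq hy.differentiableAt

theorem CD_D (h : AnalyticAt ℂ f w) : CD ∞ (D f) w :=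
  (CD.sum fun a _ => CD_fsmul (sm_of_an (an_pd a h)) (CD.const _)).congr (D_ev h)

theorem dbC_hsmul {om : Cn n → V n} (h : AnalyticAt ℂ f w) (h' : CD 1 om w) :
    dbC (fun y => f y • om y) w = f w • dbC om w := by
  rw [dbC_fsmul (sm1_of_an h) h']
  simp [dbj_hol h.differentiableAt]

theorem dbC_D (h : AnalyticAt ℂ f w) : dbC (D f) w = 0 := by
  rw [dbC_congr (D_ev h), dbC_sum _ fun a _ => CD_fsmul (sm1_of_an (an_pd a h)) (CD.const _)]
  exact Finset.sum_eq_zero fun a _ => by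
    rw [dbC_hsmul (an_pd a h) (CD.const _), dbC_const, smul_zero]

theorem dbC_neg {om : Cn n → V n} (h : CD 1 om w) : dbC (fun y => -om y) w = -dbC om w := by
  simpa using dbC_csmul (-1) h

theorem dbC_sub {om η : Cn n → V n} (h : CD 1 om w) (h' : CD 1 η w) :
    dbC (fun y => om y - η y) w = dbC om w - dbC η w := by
  simp only [sub_eq_add_neg]
  rw [dbC_add h h'.neg, dbC_neg h']

theorem tht_mem (hf : AnalyticAt ℂ f w) (hg : AnalyticAt ℂ g w) : tht f g w ∈ Ty 1 0 :=
  sub_mem (Submodule.smul_mem _ _ (D_mem hg.differentiableAt))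
    (Submodule.smul_mem _ _ (D_mem hf.differentiableAt))

theorem CD_tht (hf : AnalyticAt ℂ f w) (hg : AnalyticAt ℂ g w) : CD ∞ (tht f g) w :=
  (CD_fsmul (sm_of_an hf) (CD_D hg)).sub (CD_fsmul (sm_of_an hg) (CD_D hf))

theorem dbC_tht (hf : AnalyticAt ℂ f w) (hg : AnalyticAt ℂ g w) : dbC (tht f g) w = 0 := by
  have h1 := (CD_D hf).of_le Kah.one_le_inf
  have h2 := (CD_D hg).of_le Kah.one_le_inf
  unfold tht
  rw [dbC_sub (CD_fsmul (sm1_of_an hf) h2) (CD_fsmul (sm1_of_an hg) h1), dbC_hsmul hf h2,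
    dbC_hsmul hg h1, dbC_D hf, dbC_D hg, smul_zero, smul_zero, sub_zero]

theorem dbC_tht_mul {om : Cn n → V n} (hf : AnalyticAt ℂ f w) (hg : AnalyticAt ℂ g w)
    (h : CD 1 om w) : dbC (fun y => tht f g y * om y) w = -(tht f g w * dbC om w) := by
  rw [dbC_mul ((CD_tht hf hg).of_le Kah.one_le_inf) h, dbC_tht hf hg, zero_mul, zero_add,
    Ty.invC_eq (tht_mem hf hg)]
  simp

theorem tht_eq (hf : DifferentiableAt ℂ f w) (hg : DifferentiableAt ℂ g w) :
    tht f g w = ∑ a, (f w * pd a g w - g w * pd a f w) • dz a := by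
  simp only [tht, D_eq hf, D_eq hg, Finset.smul_sum, smul_smul, sub_smul, Finset.sum_sub_distrib]

/-- the scaling of `tht` -/
theorem tht_tr {φ : Cn m → Cn n} {y : Cn m} {l f' g' : Cn m → ℂ}
    (hf : DifferentiableAt ℝ f (φ y)) (hg : DifferentiableAt ℝ g (φ y))
    (hφ : DifferentiableAt ℝ φ y) (hl : DifferentiableAt ℝ l y)
    (ef : f' =ᶠ[𝓝 y] fun v => l v * f (φ v)) (eg : g' =ᶠ[𝓝 y] fun v => l v * g (φ v)) :
    tht f' g' y = l y ^ 2 • pbC (Dr φ y) (tht f g (φ y)) := by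
  rw [tht, tht, D_congr ef, D_congr eg, D_mul (g := fun v => f (φ v)) hl (hf.comp y hφ),
    D_mul (g := fun v => g (φ v)) hl (hg.comp y hφ),
    D_comp hf hφ, D_comp hg hφ, ef.self_of_nhds, eg.self_of_nhds, map_sub, pbC_smul, pbC_smul]
  module

theorem eq_zero_of_dz (hx : x ∈ Ty p q) (hp : p < n) (h : ∀ a, dz a * x = 0) : x = 0 := by
  have h1 : ∀ a, dz a * iz a x = x := fun a => by
    have h2 := ct_th_mul (.inl a) (.inl a) x
    simp only [ct_inl, th_inl, h, map_zero, if_true] at h2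
    exact (sub_eq_zero.1 h2.symm).symm
  have h2 := hx.1
  rw [Nz_apply] at h2
  simp only [h1, Finset.sum_const, Finset.card_univ, Fintype.card_fin] at h2
  rw [← Nat.cast_smul_eq_nsmul ℂ, ← sub_eq_zero, ← sub_smul, smul_eq_zero, sub_eq_zero,
    Nat.cast_inj] at h2
  exact h2.resolve_left hp.ne'

theorem dz_ne (a : Fin n) : dz a ≠ 0 := fun h => by
  have h1 := ct_th (n := n) (.inl a) (.inl a)
  rw [th_inl, h, map_zero, if_pos rfl] at h1
  have h2 := congrArg au h1
  rw [map_zero, au_one] at h2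
  exact zero_ne_one h2

theorem dz_mul_Om (a : Fin n) : dz a * Om n = 0 :=
  Ty.eq_zero (Ty.mul (dz_mem a) Om_mem) (Or.inl (by omega))

theorem dz_iz_Om (c a : Fin n) : dz c * iz a (Om n) = if a = c then Om n else 0 := by
  have h := ct_th_mul (.inl a) (.inl c) (Om n)
  simp only [ct_inl, th_inl, dz_mul_Om, map_zero, Sum.inl.injEq] at h
  exact (sub_eq_zero.1 h.symm).symm

theorem dbC_Om (h : ContDiffAt ℝ 1 f w) :
    dbC (fun y => f y • Om n) w = (∑ a, dbj a f w • dzb a) * Om n := by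
  rw [dbC_fsmul h (CD.const _), dbC_const, smul_zero, add_zero]

theorem holo_of_dbC (h : ContDiffAt ℝ 1 f w) (h0 : dbC (fun y => f y • Om n) w = 0) :
    DifferentiableAt ℂ f w := by
  refine differentiableAt_of_dbj (h.differentiableAt one_ne_zero) fun a => ?_
  have h1 := congrArg (izb a) h0
  rw [dbC_Om h, Finset.sum_mul, map_sum, map_zero] at h1
  simp only [smul_mul_assoc, map_smul, ← th_inr, ← ct_inr, ct_th_mul] at h1
  simp only [ct_inr, Ty.izb_eq_zero a Om_mem, mul_zero, sub_zero, Sum.inr.injEq, smul_ite,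
    smul_zero, Finset.sum_ite_eq, Finset.mem_univ, if_true] at h1
  exact (smul_eq_zero.1 h1).resolve_right Om_ne

end Crest.Agent.X262.H31
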