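import Crest.Agent.X262.H31.Calc
import Crest.Agent.X262.Kah.ClsH

/-!
# X262 / H31 (helper60), file Glob: the global argument

`Dat A S p` : sections `z s` of `L`, a nowhere vanishing section `h Om` of `K ⊗ L³`, smooth
sections `ψ s t` of `L⁻¹` and local forms `η` of type `(p,1)` with `tht s t ∧ η = -∂̄(ψ s t h Om)`.
`Dat.form` is a global `∂̄`-closed form which is not `∂̄`-exact; `Dat.typH_ne`.
-/

set_option autoImplicit false
set_option linter.unusedSectionVars false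

open Complex Filter Topology
open scoped ContDiff

noncomputable section

namespace Crest.Agent.X262.H31

open Crest.Agent.R208.F Crest.Agent.R208.CW Crest.Agent.X262.Kah Crest.Agent.X262.Kah.Fib
open Crest.Agent.R275.Geo (Cn dbj Atl Part)
open Crest.Agent.X262.Pg58 (Om co Om_mem Om_ne eq_co)
open Crest.Agent.X262.Man (Emb)

variable {n : ℕ} {M : Type} [TopologicalSpace M]

/-- the local data -/
structure Dat (A : Atl n M) (S : Type) (p : ℕ) where
  /-- sections of `L` -/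
  z : A.ι → S → Cn n → ℂ
  /-- sections of `L⁻¹` -/
  ψ : A.ι → S → S → Cn n → ℂ
  /-- the section of `K ⊗ L³` -/
  h : A.ι → Cn n → ℂ
  /-- the cocycle -/
  lam : A.ι → A.ι → Cn n → ℂ
  /-- the local forms -/
  η : A.ι → Cn n → V n
  hp : p + 1 = n
  z_an : ∀ i s, ∀ w ∈ (A.e i).target, AnalyticAt ℂ (z i s) w
  h_an : ∀ i, ∀ w ∈ (A.e i).target, AnalyticAt ℂ (h i) w
  lam_an : ∀ i j, ∀ w ∈ A.ov i j, AnalyticAt ℂ (lam i j) w
  ψ_sm : ∀ i s t, ∀ w ∈ (A.e i).target, ContDiffAt ℝ ∞ (ψ i s t) w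
  η_sm : ∀ i, ∀ w ∈ (A.e i).target, CD ∞ (η i) w
  η_ty : ∀ i, ∀ w ∈ (A.e i).target, η i w ∈ Ty p 1
  h_ne : ∀ i, ∀ w ∈ (A.e i).target, h i w ≠ 0
  z_tr : ∀ i j s, ∀ w ∈ A.ov i j, z i s w = lam i j w * z j s (tr A i j w)
  ψ_tr : ∀ i j s t, ∀ w ∈ A.ov i j, lam i j w * ψ i s t w = ψ j s t (tr A i j w)
  h_tr : ∀ i j, ∀ w ∈ A.ov i j,
    h i w = lam i j w ^ 3 * (mat (Dtr A i j w)).det * h j (tr A i j w)
  gen : ∀ i, ∀ w ∈ (A.e i).target, ∀ a, ∃ s t, tht (z i s) (z i t) w = dz a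
  nrm : ∀ i, ∀ w ∈ (A.e i).target, ∃ s t, tht (z i s) (z i t) w = 0 ∧ ψ i s t w ≠ 0
  key : ∀ i s t, ∀ w ∈ (A.e i).target, tht (z i s) (z i t) w * η i w =
    -dbC (fun y => (ψ i s t y * h i y) • Om n) w

variable {A : Atl n M} {S : Type} {p : ℕ}

theorem tgt_nhds {i : A.ι} {w : Cn n} (hw : w ∈ (A.e i).target) : (A.e i).target ∈ 𝓝 w :=
  (A.e i).open_target.mem_nhds hw

theorem ov_nhds {i j : A.ι} {w : Cn n} (hw : w ∈ A.ov i j) : A.ov i j ∈ 𝓝 w :=
  (isOpen_ov' i j).mem_nhds hw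

theorem Dtr_I {i j : A.ι} {w : Cn n} (hw : w ∈ A.ov i j) (v : Cn n) :
    Dtr A i j w (I • v) = I • Dtr A i j w v := Dr_I (tr_holo hw).self_of_nhds v

namespace Dat

variable (d : Dat A S p) {i j : A.ι} {w : Cn n}

/-- `z s d(z t) - z t d(z s)` -/
def θ (i : A.ι) (s t : S) : Cn n → V n := tht (d.z i s) (d.z i t)

/-- `ψ h Om` -/
def Ψ (i : A.ι) (s t : S) (y : Cn n) : V n := (d.ψ i s t y * d.h i y) • Om n

theorem CD_Ψ (s t : S) (hw : w ∈ (A.e i).target) : CD ∞ (d.Ψ i s t) w :=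
  CD_fsmul ((d.ψ_sm i s t w hw).mul (sm_of_an (d.h_an i w hw))) (CD.const _)

theorem uniq (hw : w ∈ (A.e i).target) {x : V n} {q : ℕ} (hx : x ∈ Ty p q)
    (h : ∀ s t, d.θ i s t w * x = 0) : x = 0 :=
  eq_zero_of_dz hx (by have := d.hp; omega) fun a => by
    obtain ⟨s, t, e⟩ := d.gen i w hw a
    rw [← e]
    exact h s t

theorem θ_tr (s t : S) (hw : w ∈ A.ov i j) :
    d.θ i s t w = d.lam i j w ^ 2 • pbC (Dtr A i j w) (d.θ j s t (tr A i j w)) :=
  tht_tr (dif_of_an (d.z_an j s _ (tr_mem hw))) (dif_of_an (d.z_an j t _ (tr_mem hw)))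
    ((tr_contDiffAt hw).differentiableAt (by simp)) (dif_of_an (d.lam_an i j w hw))
    (mem_of_superset (ov_nhds hw) fun y hy => d.z_tr i j s y hy)
    (mem_of_superset (ov_nhds hw) fun y hy => d.z_tr i j t y hy)

theorem Ψ_tr (s t : S) (hw : w ∈ A.ov i j) :
    d.Ψ i s t w = d.lam i j w ^ 2 • pbC (Dtr A i j w) (d.Ψ j s t (tr A i j w)) := by
  rw [Ψ, Ψ, pbC_smul, Pg58.pbC_Om (Dtr_I hw), smul_smul, smul_smul, d.h_tr i j w hw,
    ← d.ψ_tr i j s t w hw]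
  congr 1
  ring

theorem dbC_Ψ_tr (s t : S) (hw : w ∈ A.ov i j) : dbC (d.Ψ i s t) w =
    d.lam i j w ^ 2 • pbC (Dtr A i j w) (dbC (d.Ψ j s t) (tr A i j w)) := by
  have h1 := (d.CD_Ψ s t (tr_mem hw)).of_le Kah.one_le_inf
  have h2 := (tr_contDiffAt hw).of_le Kah.two_le_inf
  rw [dbC_congr (η := fun y => d.lam i j y ^ 2 • pullC (tr A i j) (d.Ψ j s t) y)
    (mem_of_superset (ov_nhds hw) fun y hy => d.Ψ_tr s t hy),
    dbC_hsmul ((d.lam_an i j w hw).fun_pow 2) (h1.pullC h2 (by norm_num)),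
    dbC_pullC (tr_holo hw) h2 h1]
  rfl

theorem η_tr (hw : w ∈ A.ov i j) : d.η i w = pbC (Dtr A i j w) (d.η j (tr A i j w)) := by
  rw [← sub_eq_zero]
  refine d.uniq hw.1 (sub_mem (d.η_ty i w hw.1)
    (Ty.pb_mem (Dtr_I hw) (d.η_ty j _ (tr_mem hw)))) fun s t => ?_
  have h1 : d.θ i s t w * d.η i w = -dbC (d.Ψ i s t) w := d.key i s t w hw.1
  have h2 : d.θ j s t _ * d.η j _ = -dbC (d.Ψ j s t) _ := d.key j s t _ (tr_mem hw)
  rw [mul_sub, h1, d.θ_tr s t hw, smul_mul_assoc, ← map_mul, h2, map_neg, smul_neg,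
    ← d.dbC_Ψ_tr s t hw, sub_self]

/-- the global form -/
def form : FS A := FS.mk' d.η d.η_sm fun _ _ _ hw => d.η_tr hw

theorem form_apply (hw : w ∈ (A.e i).target) : d.form.1 i w = d.η i w := FS.mk'_apply hw

theorem form_ty : TyF p 1 d.form := fun i w hw => d.form_apply hw ▸ d.η_ty i w hw

theorem dbF_form (ht : TyF p 2 (dbF A d.form)) : dbF A d.form = 0 := FS.ext' fun i w hw => by
  refine d.uniq hw (ht i w hw) fun s t => ?_
  rw [dbF_apply _ hw, ← neg_eq_zero, θ, ← dbC_tht_mul (d.z_an i s w hw) (d.z_an i t w hw)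
    (d.form.sm1 hw), dbC_congr (η := fun y => -dbC (d.Ψ i s t) y)
      (mem_of_superset (tgt_nhds hw) fun y hy => by
        change _ * d.form.1 i y = _
        rw [d.form_apply hy]
        exact d.key i s t y hy),
    dbC_neg (CD_dbC (d.CD_Ψ s t hw) (m := 1) (by exact Kah.two_le_inf)),
    dbC_dbC ((d.CD_Ψ s t hw).of_le Kah.two_le_inf), neg_zero]

section exact

variable {β : FS A}

/-- the holomorphic section of `K ⊗ L²` -/
def κ (β : FS A) (i : A.ι) (s t : S) (y : Cn n) : V n := d.Ψ i s t y - d.θ i s t y * β.1 i y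

/-- the holomorphic section of `L⁻¹` -/
def f (β : FS A) (i : A.ι) (s t : S) (y : Cn n) : ℂ := co n (d.κ β i s t y) * (d.h i y)⁻¹

theorem CD_κ (β : FS A) (s t : S) (hw : w ∈ (A.e i).target) : CD ∞ (d.κ β i s t) w :=
  (d.CD_Ψ s t hw).sub ((CD_tht (d.z_an i s w hw) (d.z_an i t w hw)).mul (β.sm hw))

theorem κ_mem (hβ : TyF p 0 β) (s t : S) (hw : w ∈ (A.e i).target) : d.κ β i s t w ∈ Ty n 0 := by
  refine sub_mem (Pg58.smul_Om_mem _) ?_
  have h := Ty.mul (tht_mem (d.z_an i s w hw) (d.z_an i t w hw)) (hβ i w hw)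
  rwa [add_comm 1 p, d.hp] at h

theorem dbC_κ (he : dbF A β = d.form) (s t : S) (hw : w ∈ (A.e i).target) :
    dbC (d.κ β i s t) w = 0 := by
  unfold κ θ
  rw [dbC_sub ((d.CD_Ψ s t hw).of_le Kah.one_le_inf)
    (((CD_tht (d.z_an i s w hw) (d.z_an i t w hw)).of_le Kah.one_le_inf).mul (β.sm1 hw)),
    dbC_tht_mul (d.z_an i s w hw) (d.z_an i t w hw) (β.sm1 hw), ← dbF_apply _ hw, he,
    d.form_apply hw, d.key i s t w hw, neg_neg]
  exact sub_self _

theorem f_dif (hβ : TyF p 0 β) (he : dbF A β = d.form) (s t : S) (hw : w ∈ (A.e i).target) :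
    DifferentiableAt ℂ (d.f β i s t) w := by
  refine (holo_of_dbC ((CD_fun (co n) (d.CD_κ β s t hw)).of_le Kah.one_le_inf) ?_).fun_mul
    ((d.h_an i w hw).inv (d.h_ne i w hw)).differentiableAt
  rw [← d.dbC_κ he s t hw]
  exact dbC_congr (mem_of_superset (tgt_nhds hw) fun y hy => (eq_co (d.κ_mem hβ s t hy)).symm)

theorem f_an (hβ : TyF p 0 β) (he : dbF A β = d.form) (s t : S) (hw : w ∈ (A.e i).target) :
    AnalyticAt ℂ (d.f β i s t) w :=
  ((R266.SCV.contDiffOn_omega_of_differentiableOn (A.e i).open_target fun _ hy =>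
    (d.f_dif hβ he s t hy).differentiableWithinAt).contDiffAt (tgt_nhds hw)).analyticAt

theorem f_tr (hβ : TyF p 0 β) (s t : S) (hw : w ∈ A.ov i j) :
    d.lam i j w * d.f β i s t w = d.f β j s t (tr A i j w) := by
  have h1 : d.κ β i s t w = d.lam i j w ^ 2 • pbC (Dtr A i j w) (d.κ β j s t (tr A i j w)) := by
    rw [κ, κ, d.Ψ_tr s t hw, d.θ_tr s t hw, β.tr' hw, map_sub, map_mul, smul_sub, smul_mul_assoc]
  have h2 := d.h_ne i w hw.1
  have h3 := d.h_ne j _ (tr_mem hw)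
  rw [f, f, h1, eq_co (d.κ_mem hβ s t (tr_mem hw)), pbC_smul, Pg58.pbC_Om (Dtr_I hw), smul_smul,
    smul_smul, Pg58.co_smul_Om, Pg58.co_smul_Om, ← div_eq_mul_inv, ← div_eq_mul_inv,
    ← mul_div_assoc, div_eq_div_iff h2 h3, d.h_tr i j w hw]
  ring

/-- the global holomorphic function -/
def fn (hβ : TyF p 0 β) (he : dbF A β = d.form) (s t u : S) : FS A :=
  FS.mk' (fun i y => (d.z i u y * d.f β i s t y) • 1)
    (fun i w hw => CD_fsmul (sm_of_an ((d.z_an i u w hw).fun_mul (d.f_an hβ he s t hw))) (CD.const _))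
    fun i j w hw => by
      rw [pbC_smul, map_one, ← d.f_tr hβ s t hw, d.z_tr i j u w hw]
      congr 1
      ring

theorem not_exact [Nonempty M] (hc : ∀ u : FS A, TyF 0 0 u → dbF A u = 0 → dF A u = 0)
    (hβ : TyF p 0 β) : dbF A β ≠ d.form := fun he => by
  have h1 : ∀ s t u i, ∀ w ∈ (A.e i).target,
      d.z i u w • D (d.f β i s t) w + d.f β i s t w • D (d.z i u) w = 0 := fun s t u i w hw => by
    have h2 := hc (d.fn hβ he s t u) (fun i w hw => by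
      rw [fn, FS.mk'_apply hw]; exact Submodule.smul_mem _ _ one_mem_Ty)
      (FS.ext' fun i w hw => by
        rw [dbF_apply _ hw, fn, dbC_congr (FS.mk'_ev hw),
          dbC_hsmul ((d.z_an i u w hw).fun_mul (d.f_an hβ he s t hw)) (CD.const _), dbC_const,
          smul_zero, FS.zero_apply])
    have h3 := dF_apply (d.fn hβ he s t u) hw
    rw [h2, fn, dC_congr (FS.mk'_ev hw), Pg58.dC_smul_const
      (dif_of_an ((d.z_an i u w hw).fun_mul (d.f_an hβ he s t hw))), mul_one] at h3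
    rw [← D_mul (dif_of_an (d.z_an i u w hw)) (dif_of_an (d.f_an hβ he s t hw))]
    exact h3.symm
  obtain ⟨x⟩ := ‹Nonempty M›
  obtain ⟨i, hi⟩ := A.cover x
  have hw := (A.e i).map_source hi
  obtain ⟨s, t, h2, h3⟩ := d.nrm i _ hw
  obtain ⟨u, v, h4⟩ := d.gen i _ hw ⟨0, by have := d.hp; omega⟩
  have h5 : d.f β i s t (A.e i x) • tht (d.z i u) (d.z i v) (A.e i x) = 0 := by
    rw [tht]
    linear_combination (norm := module) d.z i u (A.e i x) • h1 s t v i _ hw -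
      d.z i v (A.e i x) • h1 s t u i _ hw
  rw [h4, smul_eq_zero, or_iff_left (dz_ne _), f, κ, θ, h2, zero_mul, sub_zero, Ψ,
    Pg58.co_smul_Om, mul_inv_cancel_right₀ (d.h_ne i _ hw)] at h5
  exact h3 h5

end exact

include d

/-- **a closed form of type `(p,1)` which is not exact** -/
theorem exists_form [Nonempty M] [CompactSpace M] {G : KP n (FS A)} {om : FS A} (c : Cmp G om)
    (hdb : G.db = dbF A) : ∃ u : FS A, TyF p 1 u ∧ dF A u = 0 ∧ ¬ ∃ v, dF A v = u := by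
  have h1 : G.Ty p 1 d.form := (c.ty (p := p) (q := 1)).2 d.form_ty
  have h2 : G.db d.form = 0 := by
    rw [hdb]
    exact d.dbF_form ((c.ty (p := p) (q := 2)).1 (hdb ▸ G.ty_db h1))
  obtain ⟨u, y, u1, y1, e⟩ := G.dolb h1 h2
  refine ⟨u, (c.ty (p := p) (q := 1)).1 u1.ty, (c.d u).symm.trans u1.cl, fun hu => ?_⟩
  obtain ⟨y', hy'⟩ := (G.ex_iff_db u1.cl u1.db).1 (c.ex.2 hu)
  have h3 : G.db (G.pr p 0 y') = u := by
    rw [G.sh_db.apply, add_zero, zero_add, hy']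
    exact u1.ty
  refine d.not_exact (β := G.pr p 0 y' + y) (fun v v1 v2 => ?_)
    ((c.ty (p := p) (q := 0)).1 ((G.ty_pr p 0 y').add y1)) (by rw [← hdb, map_add, h3, e])
  rw [← c.d]
  exact (G.hol_closed (p := 0) ((c.ty (p := 0) (q := 0)).2 v1) (hdb ▸ v2)).cl

variable {E : Type} [NormedAddCommGroup E] [NormedSpace ℝ E] [FiniteDimensional ℝ E]

theorem typH_ne [Nonempty M] [CompactSpace M] [T2Space M] [Finite A.ι] (ε : Emb A E) (K : KF A)
    (P : Part A) (hp : Even (p + 1)) : typH ε p 1 ≠ ⊥ := fun h => by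
  obtain ⟨u, h1, h2, h3⟩ := d.exists_form (K.cmp P) rfl
  have h4 : toH ε ⟨u, h1.mem_ZF hp h2⟩ ∈ typH ε p 1 := ⟨_, h1, rfl⟩
  rw [h, Submodule.mem_bot, toH_eq_zero_iff] at h4
  exact h3 h4

end Dat

end Crest.Agent.X262.H31
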