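import Crest.Agent.X262.H31.Glob

/-!
# X262 / H31 (helper60), file Loc: the local data of a hypersurface

`Lf A` : local lifts `Z` and gradients `g`; `B = (v, Z, ∂Z)` with `v = conj g / |g|²`;
`Lf.dat : Dat A (R n → ℂ) p`.
-/

set_option autoImplicit false
set_option linter.unusedSectionVars false

open Complex Filter Topology Matrix
open scoped ContDiff ComplexConjugate

noncomputable section

namespace Crest.Agent.X262.H31

open Crest.Agent.R208.F Crest.Agent.R208.CW Crest.Agent.X262.Kah Crest.Agent.X262.Kah.Fib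
open Crest.Agent.R275.Geo (Cn dbj Atl Part)
open Crest.Agent.R275.Fm96 (dbj_hol dbj_sum dbj_sub dbj_congr dbj_const contDiffAt_dbj)
open Crest.Agent.X262.Pg58 (Om Om_mem)

variable {n : ℕ} {M : Type} [TopologicalSpace M]

section flat

variable {f g : Cn n → ℂ} {w : Cn n}

theorem contDiffAt_det {𝕜 : Type*} [NontriviallyNormedField 𝕜] [NormedAlgebra 𝕜 ℂ] {E : Type*}
    [NormedAddCommGroup E] [NormedSpace 𝕜 E] {k : WithTop ℕ∞} {ι : Type*} [Fintype ι]
    [DecidableEq ι] {B : E → Matrix ι ι ℂ} {x : E}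
    (h : ∀ a b, ContDiffAt 𝕜 k (fun y => B y a b) x) : ContDiffAt 𝕜 k (fun y => (B y).det) x := by
  simp only [det_apply']
  exact ContDiffAt.sum fun σ _ => contDiffAt_const.mul (contDiffAt_prod fun a _ => h _ _)

theorem dbj_hmul (a : Fin n) (hf : DifferentiableAt ℂ f w) (hg : DifferentiableAt ℝ g w) :
    dbj a (fun y => f y * g y) w = f w * dbj a g w := by
  have h := dbj_hol (a := a) hf
  rw [dbj_eq'] at h
  rw [dbj_eq', dbj_eq', fderiv_fun_mul (hf.restrictScalars ℝ) hg]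
  simp only [_root_.add_apply, _root_.smul_apply, smul_eq_mul]
  linear_combination g w * h

theorem pd_sum_mul {ι : Type*} [Fintype ι] (a : Fin n) {F : ι → Cn n → ℂ}
    (h : ∀ k, DifferentiableAt ℂ (F k) w) (s : ι → ℂ) :
    pd a (fun y => ∑ k, F k y * s k) w = ∑ k, pd a (F k) w * s k := by
  rw [pd, fderiv_fun_sum fun k _ => (h k).mul_const _, _root_.sum_apply]
  refine Finset.sum_congr rfl fun k _ => ?_
  rw [fderiv_mul_const (h k), _root_.smul_apply, smul_eq_mul, mul_comm, pd]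

theorem dbj_sum_mul {ι : Type*} [Fintype ι] (a : Fin n) {F : ι → Cn n → ℂ}
    (h : ∀ k, DifferentiableAt ℝ (F k) w) (s : ι → ℂ) :
    dbj a (fun y => ∑ k, F k y * s k) w = ∑ k, dbj a (F k) w * s k := by
  rw [dbj_sum fun k _ => (h k).mul_const _]
  refine Finset.sum_congr rfl fun k _ => ?_
  simp only [mul_comm _ (s k)]
  exact dbj_hmul a (differentiableAt_const _) (h k)

theorem pd_tr {φ : Cn n → Cn n} {l f' : Cn n → ℂ} (a : Fin n) (hf : DifferentiableAt ℂ f (φ w))
    (hφ : DifferentiableAt ℂ φ w) (hl : DifferentiableAt ℂ l w)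
    (e : f' =ᶠ[𝓝 w] fun y => l y * f (φ y)) :
    pd a f' w = pd a l w * f (φ w) + l w * ∑ b, mat (Dr φ w) b a * pd b f (φ w) := by
  rw [pd, e.fderiv_eq, fderiv_fun_mul hl (hf.fun_comp' w hφ), fderiv_fun_comp w hf hφ]
  simp only [_root_.add_apply, _root_.smul_apply, smul_eq_mul,
    ContinuousLinearMap.comp_apply]
  rw [sum_ep' (fderiv ℂ φ w (ep a)), map_sum, add_comm, mul_comm, pd]
  simp only [map_smul, smul_eq_mul, mat, of_apply, Dr, hφ.fderiv_restrictScalars ℝ]
  rfl

theorem mul_eta (x : Fin n → ℂ) (y : Fin n → Fin n → ℂ) :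
    (∑ c, x c • dz c) * ∑ b, ∑ a, y b a • (dzb b * iz a (Om n)) =
      -((∑ b, (∑ a, x a * y b a) • dzb b) * Om n) := by
  have h : ∀ c b a, dz c * (dzb b * iz a (Om n)) = if a = c then -(dzb b * Om n) else 0 := by
    intro c b a
    rw [← mul_assoc, show dz c * dzb b = -(dzb b * dz c) from th_anti (.inl c) (.inr b), neg_mul,
      mul_assoc, dz_iz_Om]
    split_ifs <;> simp
  simp only [Finset.sum_mul, Finset.mul_sum, smul_mul_assoc, mul_smul_comm, h, smul_ite, smul_zero,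
    Finset.sum_ite_eq, Finset.mem_univ, if_true, Finset.sum_smul, ← Finset.sum_neg_distrib]
  exact Finset.sum_congr rfl fun b _ => Finset.sum_congr rfl fun a _ => by
    rw [smul_neg, smul_neg, smul_smul, mul_comm]

end flat

/-- the index set of the homogeneous coordinates -/
abbrev R (n : ℕ) : Type := Fin 2 ⊕ Fin n

/-- lifts and gradients -/
structure Lf (A : Atl n M) where
  /-- the lifts -/
  Z : A.ι → R n → Cn n → ℂ
  /-- the gradient -/
  g : A.ι → R n → Cn n → ℂ
  /-- the cocycle -/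
  lam : A.ι → A.ι → Cn n → ℂ
  hn : n = 4
  Z_an : ∀ i k, ∀ w ∈ (A.e i).target, AnalyticAt ℂ (Z i k) w
  g_an : ∀ i k, ∀ w ∈ (A.e i).target, AnalyticAt ℂ (g i k) w
  lam_an : ∀ i j, ∀ w ∈ A.ov i j, AnalyticAt ℂ (lam i j) w
  lam_ne : ∀ i j, ∀ w ∈ A.ov i j, lam i j w ≠ 0
  Z_tr : ∀ i j k, ∀ w ∈ A.ov i j, Z i k w = lam i j w * Z j k (tr A i j w)
  g_tr : ∀ i j k, ∀ w ∈ A.ov i j, g i k w = lam i j w ^ 2 * g j k (tr A i j w)
  g_ne : ∀ i, ∀ w ∈ (A.e i).target, ∃ k, g i k w ≠ 0
  gZ : ∀ i, ∀ w ∈ (A.e i).target, ∑ k, Z i k w * g i k w = 0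
  gdZ : ∀ i, ∀ w ∈ (A.e i).target, ∀ a, ∑ k, pd a (Z i k) w * g i k w = 0
  ind : ∀ i, ∀ w ∈ (A.e i).target, ∀ (c : ℂ) (t : Fin n → ℂ),
    (∀ k, c * Z i k w + ∑ a, t a * pd a (Z i k) w = 0) → c = 0 ∧ t = 0

namespace Lf

variable {A : Atl n M} (L : Lf A)

section

variable {i j : A.ι} {w : Cn n}

/-- `|g|²` -/
def N (i : A.ι) (w : Cn n) : ℂ := ∑ k, conj (L.g i k w) * L.g i k w

/-- the normal vector -/
def v (i : A.ι) (k : R n) (w : Cn n) : ℂ := conj (L.g i k w) * (L.N i w)⁻¹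

/-- the frame -/
def B (i : A.ι) (w : Cn n) : Matrix (R n) (R n) ℂ :=
  of fun r k => Sum.elim ![L.v i k w, L.Z i k w] (fun a => pd a (L.Z i k) w) r

@[simp] theorem B_0 (k : R n) : L.B i w (.inl 0) k = L.v i k w := rfl
@[simp] theorem B_1 (k : R n) : L.B i w (.inl 1) k = L.Z i k w := rfl
@[simp] theorem B_r (a : Fin n) (k : R n) : L.B i w (.inr a) k = pd a (L.Z i k) w := rfl

theorem N_ne (hw : w ∈ (A.e i).target) : L.N i w ≠ 0 := by
  obtain ⟨k, hk⟩ := L.g_ne i w hw
  simp only [N, ← normSq_eq_conj_mul_self, ← ofReal_sum, ofReal_ne_zero]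
  exact (Finset.sum_pos' (fun l _ => normSq_nonneg (L.g i l w))
    ⟨k, Finset.mem_univ k, normSq_pos.2 hk⟩).ne'

theorem v_sm (k : R n) (hw : w ∈ (A.e i).target) : ContDiffAt ℝ ∞ (L.v i k) w := by
  have h : ∀ k, ContDiffAt ℝ ∞ (fun y => conj (L.g i k y)) w := fun k =>
    conjCLE.contDiff.contDiffAt.comp w (sm_of_an (L.g_an i k w hw))
  exact (h k).mul ((ContDiffAt.sum fun k _ => (h k).mul (sm_of_an (L.g_an i k w hw))).inv
    (L.N_ne hw))

theorem v_dif (k : R n) (hw : w ∈ (A.e i).target) : DifferentiableAt ℝ (L.v i k) w :=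
  (L.v_sm k hw).differentiableAt (by simp)

theorem vg (hw : w ∈ (A.e i).target) : ∑ k, L.v i k w * L.g i k w = 1 := by
  simp only [v, mul_right_comm _ (L.N i w)⁻¹, ← Finset.sum_mul]
  exact mul_inv_cancel₀ (L.N_ne hw)

theorem v_tr (k : R n) (hw : w ∈ A.ov i j) :
    L.v i k w = (L.lam i j w ^ 2)⁻¹ * L.v j k (tr A i j w) := by
  have h1 : L.N i w = conj (L.lam i j w ^ 2) * L.lam i j w ^ 2 * L.N j (tr A i j w) := by
    simp only [N, L.g_tr i j _ w hw, map_mul, Finset.mul_sum]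
    exact Finset.sum_congr rfl fun k _ => by ring
  have h2 : conj (L.lam i j w ^ 2) ≠ 0 := (map_ne_zero _).2 (pow_ne_zero 2 (L.lam_ne i j w hw))
  rw [v, v, h1, L.g_tr i j k w hw, map_mul, mul_inv, mul_inv]
  field_simp

theorem B_g (hw : w ∈ (A.e i).target) : L.B i w *ᵥ (L.g i · w) = Pi.single (.inl 0) 1 := by
  funext r
  rcases r with r | a
  · fin_cases r
    · exact (L.vg hw).trans (by simp)
    · exact (L.gZ i w hw).trans (by simp)
  · exact (L.gdZ i w hw a).trans (by simp)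

theorem det_ne (hw : w ∈ (A.e i).target) : (L.B i w).det ≠ 0 := fun h => by
  obtain ⟨x, hx, h1⟩ := exists_vecMul_eq_zero_iff.2 h
  have h2 : x (.inl 0) = 0 := by
    have h3 := dotProduct_mulVec x (L.B i w) (L.g i · w)
    rwa [L.B_g hw, h1, zero_dotProduct, dotProduct_single, mul_one] at h3
  obtain ⟨h3, h4⟩ := L.ind i w hw (x (.inl 1)) (fun a => x (.inr a)) fun k => by
    have h5 := congrFun h1 k
    simpa [vecMul, dotProduct, h2] using h5
  refine hx (funext fun r => ?_)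
  rcases r with r | a
  · fin_cases r
    exacts [h2, h3]
  · exact congrFun h4 a

theorem adj_g (hw : w ∈ (A.e i).target) (k : R n) :
    (L.B i w).adjugate k (.inl 0) = (L.B i w).det * L.g i k w := by
  have h := mulVec_mulVec (L.g i · w) (L.B i w).adjugate (L.B i w)
  rw [L.B_g hw, adjugate_mul, smul_mulVec, one_mulVec, mulVec_single_one] at h
  exact congrFun h k

theorem B_sm (hw : w ∈ (A.e i).target) (r k : R n) : ContDiffAt ℝ ∞ (fun y => L.B i y r k) w := by
  rcases r with r | a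
  · fin_cases r
    exacts [L.v_sm k hw, sm_of_an (L.Z_an i k w hw)]
  · exact sm_of_an (an_pd a (L.Z_an i k w hw))

theorem adj_sm (hw : w ∈ (A.e i).target) (k r : R n) :
    ContDiffAt ℝ ∞ (fun y => (L.B i y).adjugate k r) w := by
  simp only [adjugate_apply]
  refine contDiffAt_det fun a b => ?_
  simp only [updateRow_apply]
  split_ifs
  exacts [contDiffAt_const, L.B_sm hw a b]

theorem det_an (hw : w ∈ (A.e i).target) : AnalyticAt ℂ (fun y => (L.B i y).det) w := by
  obtain ⟨k, hk⟩ := L.g_ne i w hw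
  have h1 : AnalyticAt ℂ (fun y => (L.B i y).adjugate k (.inl 0)) w := by
    simp only [adjugate_apply]
    refine (contDiffAt_det (k := ω) fun a b => ?_).analyticAt
    simp only [updateRow_apply]
    split_ifs with h
    · exact contDiffAt_const
    rcases a with r | a
    · fin_cases r
      exacts [absurd rfl h, (L.Z_an i b w hw).contDiffAt]
    · exact (an_pd a (L.Z_an i b w hw)).contDiffAt
  refine (h1.fun_mul ((L.g_an i k w hw).fun_inv hk)).congr ?_
  filter_upwards [tgt_nhds hw, (L.g_an i k w hw).continuousAt.eventually_ne hk] with y hy h2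
  rw [L.adj_g hy, mul_inv_cancel_right₀ h2]

theorem det_tr (hw : w ∈ A.ov i j) : (L.B i w).det =
    L.lam i j w ^ 3 * (mat (Dtr A i j w)).det * (L.B j (tr A i j w)).det := by
  have h1 : L.B i w = fromBlocks (diagonal ![(L.lam i j w ^ 2)⁻¹, L.lam i j w]) 0
      (of fun a => ![0, pd a (L.lam i j) w]) (L.lam i j w • (mat (Dtr A i j w))ᵀ) *
        L.B j (tr A i j w) := by
    ext r k
    rcases r with r | a
    · fin_cases r
      · simpa [mul_apply] using L.v_tr k hw
      · simpa [mul_apply] using L.Z_tr i j k w hw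
    · rw [B_r, pd_tr a (L.Z_an j k _ (tr_mem hw)).differentiableAt (tr_holo hw).self_of_nhds
        (L.lam_an i j w hw).differentiableAt
        (mem_of_superset (ov_nhds hw) fun y hy => L.Z_tr i j k y hy)]
      simp [mul_apply, Finset.mul_sum, mul_assoc, Dtr]
  have h2 := L.lam_ne i j w hw
  rw [h1, det_mul, det_fromBlocks_zero₁₂, det_smul, det_transpose, det_diagonal, Fin.prod_univ_two,
    (Fintype.card_fin n).trans L.hn]
  simp only [cons_val_zero, cons_val_one]
  field_simp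

/-- the section with coefficients `s` -/
def z (i : A.ι) (s : R n → ℂ) (w : Cn n) : ℂ := ∑ k, L.Z i k w * s k

/-- the component of `v` -/
def vs (i : A.ι) (s : R n → ℂ) (w : Cn n) : ℂ := ∑ k, L.v i k w * s k

/-- the coefficients of `h ∂̄ v` in the frame -/
def c (i : A.ι) (b : Fin n) (w : Cn n) : R n → ℂ :=
  (fun k => dbj b (L.v i k) w) ᵥ* (L.B i w).adjugate

theorem z_an (s : R n → ℂ) (hw : w ∈ (A.e i).target) : AnalyticAt ℂ (L.z i s) w :=
  Finset.analyticAt_fun_sum _ fun k _ => (L.Z_an i k w hw).fun_mul analyticAt_const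

theorem vs_sm (s : R n → ℂ) (hw : w ∈ (A.e i).target) : ContDiffAt ℝ ∞ (L.vs i s) w :=
  ContDiffAt.sum fun k _ => (L.v_sm k hw).mul contDiffAt_const

theorem pd_z (s : R n → ℂ) (hw : w ∈ (A.e i).target) (a : Fin n) :
    pd a (L.z i s) w = (L.B i w *ᵥ s) (.inr a) :=
  pd_sum_mul a (fun k => (L.Z_an i k w hw).differentiableAt) s

theorem exists_dual (hw : w ∈ (A.e i).target) (r : R n) :
    ∃ s, L.vs i s w = Pi.single (M := fun _ => ℂ) r 1 (.inl 0) ∧
      L.z i s w = Pi.single (M := fun _ => ℂ) r 1 (.inl 1) ∧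
      ∀ a, pd a (L.z i s) w = Pi.single (M := fun _ => ℂ) r 1 (.inr a) := by
  have h : L.B i w *ᵥ ((L.B i w)⁻¹ *ᵥ Pi.single r 1) = Pi.single r 1 := by
    rw [mulVec_mulVec, mul_nonsing_inv _ (L.det_ne hw).isUnit, one_mulVec]
  exact ⟨_, congrFun h (.inl 0), congrFun h (.inl 1), fun a => (L.pd_z _ hw a).trans (congrFun h _)⟩

theorem c_sm (hw : w ∈ (A.e i).target) (b : Fin n) (r : R n) :
    ContDiffAt ℝ ∞ (fun y => L.c i b y r) w := by
  simp only [c, vecMul, dotProduct]
  exact ContDiffAt.sum fun k _ => (contDiffAt_dbj (L.v_sm k hw)).mul (L.adj_sm hw k r)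

theorem c_zero (hw : w ∈ (A.e i).target) (b : Fin n) : L.c i b w (.inl 0) = 0 := by
  have h1 : dbj b (fun y => ∑ k, L.g i k y * L.v i k y) w = 0 := by
    rw [dbj_congr (g := fun _ => 1) (mem_of_superset (tgt_nhds hw) fun y hy => by
      simpa only [mul_comm, Set.mem_ofPred_eq] using L.vg hy), dbj_const]
  rw [dbj_sum fun k _ => (dif_of_an (L.g_an i k w hw)).fun_mul (L.v_dif k hw)] at h1
  simp only [fun k => dbj_hmul b (L.g_an i k w hw).differentiableAt (L.v_dif k hw)] at h1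
  simp only [c, vecMul, dotProduct, L.adj_g hw]
  rw [← mul_zero (L.B i w).det, ← h1, Finset.mul_sum]
  exact Finset.sum_congr rfl fun k _ => by ring

theorem c_B (hw : w ∈ (A.e i).target) (b : Fin n) (s : R n → ℂ) :
    ∑ a, pd a (L.z i s) w * L.c i b w (.inr a) =
      (L.B i w).det * dbj b (L.vs i s) w - L.c i b w (.inl 1) * L.z i s w := by
  have h1 := dotProduct_mulVec (L.c i b w) (L.B i w) s
  rw [c, vecMul_vecMul, adjugate_mul, vecMul_smul, vecMul_one, smul_dotProduct, ← c, dotProduct,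
    Fintype.sum_sum_type, Fin.sum_univ_two, L.c_zero hw, zero_mul, zero_add] at h1
  have h2 : dbj b (L.vs i s) w = _ := dbj_sum_mul b (fun k => L.v_dif k hw) s
  rw [h2, eq_sub_iff_add_eq']
  simp only [L.pd_z s hw, mul_comm _ (L.c i b w _)]
  exact h1

end

/-- **the data** -/
def dat {p : ℕ} (hp : p + 1 = n) : Dat A (R n → ℂ) p where
  z := L.z
  ψ i s t w := L.z i s w * L.vs i t w - L.z i t w * L.vs i s w
  h i w := (L.B i w).det
  lam := L.lam
  η i w := ∑ b, ∑ a, L.c i b w (.inr a) • (dzb b * iz a (Om n))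
  hp := hp
  z_an _ s _ hw := L.z_an s hw
  h_an _ _ hw := L.det_an hw
  lam_an := L.lam_an
  ψ_sm _ s t _ hw := ((sm_of_an (L.z_an s hw)).mul (L.vs_sm t hw)).sub
    ((sm_of_an (L.z_an t hw)).mul (L.vs_sm s hw))
  η_sm _ _ hw := CD.sum fun b _ => CD.sum fun a _ => CD_fsmul
    (L.c_sm hw b (.inr a)) (CD.const _)
  η_ty _ _ _ := Submodule.sum_mem _ fun b _ => Submodule.sum_mem _ fun a _ =>
    Submodule.smul_mem _ _ (Ty.ezb_mem b (Ty.iz_mem a (by subst hp; exact Om_mem)))
  h_ne _ _ hw := L.det_ne hw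
  z_tr i j s w hw := by simp only [z, L.Z_tr i j _ w hw, Finset.mul_sum, mul_assoc]
  ψ_tr i j s t w hw := by
    have h := L.lam_ne i j w hw
    simp only [z, vs, L.Z_tr i j _ w hw, L.v_tr _ hw, mul_assoc, ← Finset.mul_sum]
    field_simp
  h_tr _ _ _ hw := L.det_tr hw
  gen i w hw a := by
    obtain ⟨s, -, s1, -⟩ := L.exists_dual hw (.inl 1)
    obtain ⟨t, -, t1, t2⟩ := L.exists_dual hw (.inr a)
    refine ⟨s, t, ?_⟩
    rw [tht_eq (L.z_an s hw).differentiableAt (L.z_an t hw).differentiableAt]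
    simp [s1, t1, t2, Pi.single_apply]
  nrm i w hw := by
    obtain ⟨s, -, s1, -⟩ := L.exists_dual hw (.inl 1)
    obtain ⟨t, t0, t1, t2⟩ := L.exists_dual hw (.inl 0)
    refine ⟨s, t, ?_, by simp [s1, t0, t1]⟩
    rw [tht_eq (L.z_an s hw).differentiableAt (L.z_an t hw).differentiableAt]
    simp [t1, t2]
  key i s t w hw := by
    have hs := (L.z_an s hw).differentiableAt
    have ht := (L.z_an t hw).differentiableAt
    have vs := (L.vs_sm s hw).differentiableAt (by simp)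
    have vt := (L.vs_sm t hw).differentiableAt (by simp)
    have h1 := (hs.restrictScalars ℝ).fun_mul vt
    have h2 := (ht.restrictScalars ℝ).fun_mul vs
    rw [tht_eq hs ht, mul_eta, dbC_Om ((((sm_of_an (L.z_an s hw)).mul (L.vs_sm t hw)).sub
      ((sm_of_an (L.z_an t hw)).mul (L.vs_sm s hw))).mul (sm_of_an (L.det_an hw)) |>.of_le
        Kah.one_le_inf)]
    congr 3
    funext b
    congr 1
    simp only [mul_comm _ (L.B i _).det]
    rw [dbj_hmul b (L.det_an hw).differentiableAt (h1.fun_sub h2), dbj_sub h1 h2,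
      dbj_hmul b hs vt, dbj_hmul b ht vs]
    simp only [sub_mul, mul_assoc, Finset.sum_sub_distrib, ← Finset.mul_sum, L.c_B hw]
    ring

end Lf

end Crest.Agent.X262.H31
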