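import Crest.Agent.X262.H31.Loc
import Crest.Agent.X262.Q74.Lft
import Crest.Agent.X262.Hx56.Defs
import Mathlib.RingTheory.MvPolynomial.EulerIdentity

/-!
# X262 / H31 (helper60), file Main: `H^{3,1}` of a smooth cubic fourfold is not zero

* `coreL : Q74.CoreL`;  `h31Stmt : Chn.H31Stmt (thOf typP c1 Lam)`;  `h31 : Hx56.H31 (..)`.
-/

set_option autoImplicit false

open Filter Topology MvPolynomial

noncomputable section

namespace Crest.Agent.X262.H31

open Crest.Agent.X277 Crest.Agent.X262.Kah Crest.Agent.X262.Kah.Fib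
open Crest.Agent.R275.Geo (Cn Atl Part)
open Crest.Agent.X262.Q74 (Lft)

section

variable {n : ℕ} {σ : Type} [Fintype σ] {F : σ → Cn n → ℂ} {w : Cn n}

omit [Fintype σ] in
theorem an_eval (h : ∀ k, AnalyticAt ℂ (F k) w) (q : MvPolynomial σ ℂ) :
    AnalyticAt ℂ (fun y => eval (fun k => F k y) q) w := by
  induction q using MvPolynomial.induction_on with
  | C a => simpa only [eval_C] using analyticAt_const
  | add p q hp hq => simpa only [map_add] using hp.fun_add hq
  | mul_X p k hp => simpa only [map_mul, eval_X] using hp.fun_mul (h k)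

theorem pd_eval (h : ∀ k, AnalyticAt ℂ (F k) w) (a : Fin n) (q : MvPolynomial σ ℂ) :
    pd a (fun y => eval (fun k => F k y) q) w =
      ∑ k, pd a (F k) w * eval (fun k => F k w) (pderiv k q) := by
  classical
  induction q using MvPolynomial.induction_on with
  | C a => simp [pd]
  | add p q hp hq =>
    simp only [map_add, mul_add, Finset.sum_add_distrib, ← hp, ← hq]
    rw [pd, fderiv_fun_add (an_eval h p).differentiableAt (an_eval h q).differentiableAt]
    rfl
  | mul_X p k hp =>
    simp only [map_mul, eval_X, Derivation.leibniz, smul_eq_mul, map_add, pderiv_X, mul_add,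
      Finset.sum_add_distrib, mul_left_comm _ (F k w), ← Finset.mul_sum, ← hp]
    rw [pd, fderiv_fun_mul (an_eval h p).differentiableAt (h k).differentiableAt]
    simp [pd, Pi.single_apply, apply_ite, mul_comm]

end

variable {M : Type} [TopologicalSpace M] {A : Atl 4 M} {G : MvPolynomial (Fin 6) ℂ}

/-- the lifts with the gradient -/
def lf (L : Lft A G) (hG : G.IsHomogeneous 3) : Lf A where
  Z i k w := L.Z i w (finSumFinEquiv k)
  g i k w := eval (L.Z i w) (pderiv (finSumFinEquiv k) G)
  lam i j w := L.Z i w (L.r j)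
  hn := rfl
  Z_an i k w hw := L.hol i w hw _
  g_an i k w hw := an_eval (L.hol i w hw) _
  lam_an i j w hw := L.hol i w hw.1 _
  lam_ne i j w hw h := by
    have h1 := L.tr i j w hw (L.r j) (L.r i)
    rw [L.one j _ (tr_mem hw), L.one i w hw.1, h, mul_zero, mul_one] at h1
    exact one_ne_zero h1
  Z_tr i j k w hw := by
    have h1 := L.tr i j w hw (L.r j) (finSumFinEquiv k)
    rwa [L.one j _ (tr_mem hw), one_mul, mul_comm] at h1
  g_tr i j k w hw := by
    have h1 : L.Z i w = L.Z i w (L.r j) • L.Z j (tr A i j w) := funext fun k => by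
      have h1 := L.tr i j w hw (L.r j) k
      rwa [L.one j _ (tr_mem hw), one_mul, mul_comm] at h1
    conv_lhs => rw [h1]
    exact Brg.Hyp0.aeval_smul (K := ℂ) hG.pderiv _ _
  g_ne i w hw := by
    obtain ⟨k, hk⟩ := L.grad i w hw
    exact ⟨finSumFinEquiv.symm k, by rwa [Equiv.apply_symm_apply]⟩
  gZ i w hw := by
    have h := congrArg (eval (L.Z i w)) hG.sum_X_mul_pderiv
    simp only [map_sum, map_mul, eval_X, map_nsmul, L.zero i w hw, smul_zero] at h
    exact ((finSumFinEquiv (m := 2) (n := 4)).sum_comp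
      fun k => L.Z i w k * eval (L.Z i w) (pderiv k G)).trans h
  gdZ i w hw a := by
    have h := pd_eval (L.hol i w hw) a G
    rw [pd, Filter.EventuallyEq.fderiv_eq (f := fun _ => 0)
      (mem_of_superset (tgt_nhds hw) fun y hy => L.zero i y hy), fderiv_fun_const] at h
    exact ((finSumFinEquiv (m := 2) (n := 4)).sum_comp
      fun k => pd a (fun y => L.Z i y k) w * eval (L.Z i w) (pderiv k G)).trans h.symm
  ind i w hw c t h := L.ind i w hw c t fun k => by
    have h1 := h (finSumFinEquiv.symm k)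
    rwa [Equiv.apply_symm_apply] at h1

theorem coreL : Q74.CoreL := fun _ _ _ _ _ _ _ _ L _ _ _ _ ε K P hG =>
  ((lf L hG).dat (p := 3) rfl).typH_ne ε K P (by decide)

/-- **`H^{3,1} ≠ 0`** -/
theorem h31Stmt (c1 : ∀ X : Coh.SV, BD ℂ X.F → Man.HP X.P)
    (Lam : ∀ X : Coh.SV, AddSubgroup (Man.HP X.P)) : Chn.H31Stmt (Man.thOf typP c1 Lam) :=
  Q74.h31Stmt_ofL coreL c1 Lam

theorem h31 (c1 : ∀ X : Coh.SV, BD ℂ X.F → Man.HP X.P)
    (Lam : ∀ X : Coh.SV, AddSubgroup (Man.HP X.P)) : Hx56.H31 (Man.thOf typP c1 Lam) :=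
  fun G K _ _ X hG => h31Stmt c1 Lam G hG K X

end Crest.Agent.X262.H31
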